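import Mathlib

/-!
Definitions for P282 (second form): klt points, log discrepancies and normalized volumes in terms
of divisorial valuations.
-/

set_option autoImplicit false

open scoped ENNReal

namespace Vale.Agent.P282V

/-- Rational `n`-forms on a variety with function field `L`, as functions of `n` rational vector fields
(derivations of `L`). -/
abbrev RationalForm (n : ℕ) (L : Type) [Field L] [Algebra ℂ L] : Type :=
  (Fin n → Derivation ℂ L L) → L

variable {L : Type} [Field L] [Algebra ℂ L]

/-- The form `da₁ ∧ ⋯ ∧ daₙ`: its value at `D₁, …, Dₙ` is the determinant `det (Dᵢ aⱼ)`. -/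
noncomputable def dWedge {n : ℕ} (a : Fin n → L) : RationalForm n L :=
  fun D => Matrix.det (Matrix.of fun i j => D i (a j))

/-- The valuation `v = ord_E` of a prime divisor `E` over `X = Spec A` (`L` is the function field of
`X`): a valuation of `L` with value group `ℤ`, nonnegative on `A`, whose valuation ring is the local
ring of a prime divisor on some model, that is, the localization of a finitely generated
`ℂ`-algebra `B` at the prime `{v > 0}` of `B`. -/
structure DivisorialValuation (A L : Type) [CommRing A] [Field L] [Algebra ℂ L] [Algebra A L] where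
  v : AddValuation L (WithTop ℤ)
  nonneg : ∀ a : A, 0 ≤ v (algebraMap A L a)
  exists_eq_one : ∃ π : L, v π = 1
  model : ∃ B : Subalgebra ℂ L, B.FG ∧ (∀ b ∈ B, 0 ≤ v b) ∧
    ∀ y : L, 0 ≤ v y → ∃ b ∈ B, ∃ c ∈ B, v c = 0 ∧ y * c = b

/-- The forms which are regular along `v`: finite sums of forms `g da₁ ∧ ⋯ ∧ daₙ` with
`v g ≥ 0` and all `v aᵢ ≥ 0`. -/
noncomputable def regularForms (n : ℕ) (v : AddValuation L (WithTop ℤ)) :
    AddSubgroup (RationalForm n L) :=
  AddSubgroup.closure {η | ∃ (g : L) (a : Fin n → L), 0 ≤ v g ∧ (∀ i, 0 ≤ v (a i)) ∧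
    η = g • dWedge a}

/-- The order of the rational form `ω` along `v`: the largest `k` such that `g • ω` is regular
along `v` for some (equivalently, every) function `g` with `v g = -k`. -/
noncomputable def ordForm (n : ℕ) (v : AddValuation L (WithTop ℤ)) (ω : RationalForm n L) : ℤ :=
  sSup {k : ℤ | ∃ g : L, v g = ((-k : ℤ) : WithTop ℤ) ∧ g • ω ∈ regularForms n v}

namespace DivisorialValuation

variable {A : Type} [CommRing A] [Algebra A L] (E : DivisorialValuation A L)

/-- `𝔞ₜ(v)`: the functions `f` on `X` with `v f ≥ t`. -/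
def ideal (t : ℕ) : Ideal A where
  carrier := {f | ((t : ℤ) : WithTop ℤ) ≤ E.v (algebraMap A L f)}
  add_mem' := by
    intro f g hf hg
    show _ ≤ E.v (algebraMap A L (f + g))
    rw [map_add]
    exact le_trans (le_min hf hg) (E.v.map_add _ _)
  zero_mem' := by
    show _ ≤ E.v (algebraMap A L 0)
    rw [map_zero, E.v.map_zero]
    exact le_top
  smul_mem' := by
    intro c f hf
    show _ ≤ E.v (algebraMap A L (c * f))
    rw [map_mul, E.v.map_mul]
    calc ((t : ℤ) : WithTop ℤ) = 0 + ((t : ℤ) : WithTop ℤ) := (zero_add _).symm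
      _ ≤ _ := add_le_add (E.nonneg c) hf

/-- The center of `v` on `X`, as a prime ideal of `A`: the functions with `v f > 0`. -/
def center : Ideal A := E.ideal 1

/-- `v` is the valuation of a prime divisor on `X` itself: its valuation ring is the localization of
`A` at the center. -/
def IsOnX : Prop := ∀ y : L, 0 ≤ E.v y →
  ∃ a b : A, E.v (algebraMap A L b) = 0 ∧ y * algebraMap A L b = algebraMap A L a

/-- The log discrepancy `A_X(v) = 1 + v(K)`, where `ω` generates the canonical sheaf. -/
noncomputable def logDiscrepancy (n : ℕ) (ω : RationalForm n L) : ℤ := 1 + ordForm n E.v ω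

/-- `vol(v) = limsup n! ℓ(A / 𝔞ₜ(v)) / tⁿ` -/
noncomputable def vol (n : ℕ) : ℝ≥0∞ :=
  Filter.limsup (fun t : ℕ => (n.factorial : ℝ≥0∞) *
    (Module.length A (A ⧸ E.ideal t) : ℝ≥0∞) / (t : ℝ≥0∞) ^ n) Filter.atTop

end DivisorialValuation

/-- The normalized volume of the closed point `x` of `X = Spec A`: the infimum of
`A_X(v) ^ n * vol(v)` over the divisorial valuations centered at `x`. -/
noncomputable def normalizedVolume (n : ℕ) {A : Type} [CommRing A] [Algebra A L] (x : Ideal A)
    (ω : RationalForm n L) : ℝ≥0∞ :=
  ⨅ (E : DivisorialValuation A L) (_ : E.center = x),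
    ENNReal.ofReal (E.logDiscrepancy n ω) ^ n * E.vol n

/-- A Noetherian local ring is Cohen–Macaulay if every system of parameters is a regular
sequence. -/
def IsCohenMacaulayLocal (R : Type) [CommRing R] [IsLocalRing R] : Prop :=
  ∀ rs : List R, (rs.length : WithBot ℕ∞) = ringKrullDim R →
    (Ideal.ofList rs).radical = IsLocalRing.maximalIdeal R → RingTheory.Sequence.IsRegular R rs

/-- `X = Spec A` is a normal complex affine variety of dimension `n` with function field `L`, which is
Cohen–Macaulay, `x` is a closed point of `X`, the rational form `ω` generates the canonical sheaf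
of `X` near `x` (so `K_X` is Cartier at `x`), and `X` is klt at `x`. -/
structure IsGorensteinKltPoint (n : ℕ) (A : Type) {L : Type} [CommRing A] [Algebra ℂ A] [Field L]
    [Algebra ℂ L] [Algebra A L] [IsScalarTower ℂ A L] (x : Ideal A) (ω : RationalForm n L) : Prop where
  isDomain : IsDomain A
  isFractionRing : IsFractionRing A L
  finiteType : Algebra.FiniteType ℂ A
  normal : IsIntegrallyClosed A
  dim : ringKrullDim A = n
  isMaximal : x.IsMaximal
  cohenMacaulay : ∀ (y : Ideal A) [y.IsMaximal], IsCohenMacaulayLocal (Localization.AtPrime y)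
  canonical : ∀ E : DivisorialValuation A L, E.IsOnX → E.center ≤ x →
    ∀ η : RationalForm n L, η ∈ regularForms n E.v ↔ ∃ g : L, 0 ≤ E.v g ∧ η = g • ω
  klt : ∀ E : DivisorialValuation A L, E.center ≤ x → 0 < E.logDiscrepancy n ω

end Vale.Agent.P282V
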