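import Vale.Agent.Lib.P282.Main
import Vale.Agent.Lib.P282V.Defs

/-!
Bridge between the definitions of P282V and those of P282.
-/

set_option autoImplicit false

open scoped ENNReal

namespace Vale.Agent.P282V

open Vale.Agent.P282 hiding RationalForm IsCohenMacaulayLocal regularForms normalizedVolume

variable {L : Type} [Field L] [Algebra ℂ L]

/-! ### the valuation of an old prime divisor -/

open Classical in
/-- the valuation as an additive valuation -/
noncomputable def val (E : PrimeDivisorOver L) : AddValuation L (WithTop ℤ) :=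
  AddValuation.of (fun x => if x = 0 then ⊤ else ((E.v x : ℤ) : WithTop ℤ))
    (by simp)
    (by simp [E.v_one])
    (by
      intro x y
      by_cases hx : x = 0
      · simp [hx]
      by_cases hy : y = 0
      · simp [hy]
      by_cases hxy : x + y = 0
      · simp [hxy]
      rw [if_neg hx, if_neg hy, if_neg hxy]
      rcases le_total (E.v x) (E.v y) with h | h
      · refine le_trans (min_le_left _ _) ?_
        have h1 := E.ge_add ((E.ge_iff hx).2 le_rfl) ((E.ge_iff hy).2 h)
        rw [E.ge_iff hxy] at h1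
        exact_mod_cast h1
      · refine le_trans (min_le_right _ _) ?_
        have h1 := E.ge_add ((E.ge_iff hx).2 h) ((E.ge_iff hy).2 le_rfl)
        rw [E.ge_iff hxy] at h1
        exact_mod_cast h1)
    (by
      intro x y
      by_cases hx : x = 0
      · simp [hx]
      by_cases hy : y = 0
      · simp [hy]
      rw [if_neg hx, if_neg hy, if_neg (mul_ne_zero hx hy), E.v_mul hx hy]
      push_cast
      rfl)

open Classical in
theorem val_of_ne (E : PrimeDivisorOver L) {x : L} (hx : x ≠ 0) :
    val E x = ((E.v x : ℤ) : WithTop ℤ) := by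
  show (if x = 0 then ⊤ else ((E.v x : ℤ) : WithTop ℤ)) = _
  rw [if_neg hx]

theorem le_val_iff (E : PrimeDivisorOver L) {x : L} {k : ℤ} :
    ((k : ℤ) : WithTop ℤ) ≤ val E x ↔ E.ge k x := by
  by_cases hx : x = 0
  · subst hx
    rw [(val E).map_zero]
    exact ⟨fun _ => E.ge_zero k, fun _ => le_top⟩
  · rw [val_of_ne E hx, E.ge_iff hx]
    exact_mod_cast Iff.rfl

theorem zero_le_val_iff (E : PrimeDivisorOver L) {x : L} : 0 ≤ val E x ↔ x ∈ E.ring := by
  rw [E.mem_iff_ge, ← le_val_iff]
  rfl

theorem val_eq_iff (E : PrimeDivisorOver L) {x : L} {k : ℤ} :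
    val E x = ((k : ℤ) : WithTop ℤ) ↔ x ≠ 0 ∧ E.v x = k := by
  constructor
  · intro h
    have hx : x ≠ 0 := by
      rintro rfl
      rw [(val E).map_zero] at h
      exact absurd h.symm (WithTop.coe_ne_top)
    refine ⟨hx, ?_⟩
    rw [val_of_ne E hx] at h
    exact_mod_cast h
  · rintro ⟨hx, rfl⟩
    exact val_of_ne E hx

theorem val_eq_zero_iff (E : PrimeDivisorOver L) {x : L} : val E x = 0 ↔ x ≠ 0 ∧ E.v x = 0 :=
  val_eq_iff E (k := 0)

theorem val_model (E : PrimeDivisorOver L) : ∃ B : Subalgebra ℂ L, B.FG ∧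
    (∀ b ∈ B, 0 ≤ val E b) ∧
    ∀ y : L, 0 ≤ val E y → ∃ b ∈ B, ∃ c ∈ B, val E c = 0 ∧ y * c = b := by
  obtain ⟨σ, hσ⟩ := (Algebra.essFiniteType_iff ℂ E.ring).1 E.essFin
  refine ⟨(Algebra.adjoin ℂ (σ : Set E.ring)).map E.ring.val, ?_, ?_, ?_⟩
  · exact (Subalgebra.fg_adjoin_finset σ).map _
  · rintro _ ⟨b, _, rfl⟩
    exact (zero_le_val_iff E).2 b.2
  · intro y hy
    obtain ⟨t, ht, htu, hst⟩ := hσ ⟨y, (zero_le_val_iff E).1 hy⟩
    refine ⟨_, ⟨_, hst, rfl⟩, _, ⟨t, ht, rfl⟩, ?_, rfl⟩
    obtain ⟨u, hu⟩ := htu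
    refine (val_eq_zero_iff E).2 ?_
    show (t : L) ≠ 0 ∧ E.v (t : L) = 0
    rw [← hu]
    exact ⟨E.coe_unit_ne_zero u, E.v_unit u⟩

/-- the new divisorial valuation attached to an old prime divisor -/
noncomputable def toNew {A : Type} [CommRing A] [Algebra A L] (E : PrimeDivisorOver L)
    (h : E.IsOver A) : DivisorialValuation A L where
  v := val E
  nonneg a := (zero_le_val_iff E).2 (h a)
  exists_eq_one := ⟨E.pi, by
    have := (val_eq_iff E (x := E.pi) (k := 1)).2 ⟨E.pi_ne_zero, E.v_pi⟩
    simpa using this⟩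
  model := val_model E

section

variable {A : Type} [CommRing A] [Algebra A L] (E : PrimeDivisorOver L) (h : E.IsOver A)

theorem toNew_ideal (t : ℕ) : (toNew E h).ideal t = E.valuationIdeal h t := by
  ext a
  rw [E.mem_valuationIdeal h]
  exact le_val_iff E

theorem toNew_center : (toNew E h).center = E.center h := by
  ext a
  rw [E.mem_center h]
  exact le_val_iff E (k := 1)

theorem toNew_isOnX (ho : E.IsOn h) : (toNew E h).IsOnX := by
  intro y hy
  obtain ⟨a, b, hb, hab⟩ := ho y ((zero_le_val_iff E).1 hy)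
  refine ⟨a, b, ?_, hab⟩
  have h1 : ¬ E.ge 1 (algebraMap A L b) := fun h2 => hb ((E.mem_center h b).2 h2)
  have h2 : algebraMap A L b ≠ 0 := by
    intro h0
    rw [h0] at h1
    exact h1 (E.ge_zero 1)
  refine (val_eq_zero_iff E).2 ⟨h2, ?_⟩
  have h3 := E.mem_iff_ge.1 (h b)
  rw [E.ge_iff h2] at h1 h3
  omega

theorem length_congr {I J : Ideal A} (hIJ : I = J) :
    Module.length A (A ⧸ I) = Module.length A (A ⧸ J) := by
  rw [hIJ]

theorem toNew_vol (n : ℕ) : (toNew E h).vol n = E.volume h n := by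
  unfold DivisorialValuation.vol PrimeDivisorOver.volume
  congr 1
  funext t
  rw [length_congr (toNew_ideal E h t)]

end

/-! ### forms -/

theorem dWedge_eq {n : ℕ} (a : Fin n → L) : (dWedge a : RationalForm n L) = dwedge a := by
  funext D
  show Matrix.det (Matrix.of fun i j => D i (a j)) = Matrix.det (Matrix.of fun j i => D i (a j))
  rw [← Matrix.det_transpose]
  rfl

section

variable {n : ℕ} (E : PrimeDivisorOver L)

theorem smul_mem_new {c : L} (hc : 0 ≤ val E c) {η : RationalForm n L}
    (hη : η ∈ regularForms n (val E)) : c • η ∈ regularForms n (val E) := by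
  induction hη using AddSubgroup.closure_induction with
  | mem η h =>
    obtain ⟨g, a, hg, ha, rfl⟩ := h
    refine AddSubgroup.subset_closure ⟨c * g, a, ?_, ha, by rw [smul_smul]⟩
    rw [(val E).map_mul]
    exact add_nonneg hc hg
  | zero => rw [smul_zero]; exact AddSubgroup.zero_mem _
  | add x y _ _ hx hy => rw [smul_add]; exact AddSubgroup.add_mem _ hx hy
  | neg x _ hx => rw [smul_neg]; exact AddSubgroup.neg_mem _ hx

theorem mem_old {η : RationalForm n L} (hη : η ∈ regularForms n (val E)) :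
    η ∈ P282.regularForms n E.ring := by
  induction hη using AddSubgroup.closure_induction with
  | mem η h =>
    obtain ⟨g, a, hg, ha, rfl⟩ := h
    rw [dWedge_eq]
    have h1 : dwedge a ∈ P282.regularForms n E.ring :=
      Submodule.subset_span ⟨fun i => ⟨a i, (zero_le_val_iff E).1 (ha i)⟩, rfl⟩
    exact Submodule.smul_mem _ (⟨g, (zero_le_val_iff E).1 hg⟩ : E.ring) h1
  | zero => exact Submodule.zero_mem _
  | add x y _ _ hx hy => exact Submodule.add_mem _ hx hy
  | neg x _ hx => exact Submodule.neg_mem _ hx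

theorem mem_new {ζ : RationalForm n L} (hζ : ζ ∈ P282.regularForms n E.ring) :
    ζ ∈ regularForms n (val E) := by
  induction hζ using Submodule.span_induction with
  | mem ζ h =>
    obtain ⟨a, rfl⟩ := h
    refine AddSubgroup.subset_closure ⟨1, fun i => (a i : L), ?_, ?_, ?_⟩
    · rw [(val E).map_one]
    · intro i
      exact (zero_le_val_iff E).2 (a i).2
    · rw [one_smul, dWedge_eq]
  | zero => exact AddSubgroup.zero_mem _
  | add x y _ _ hx hy => exact AddSubgroup.add_mem _ hx hy
  | smul c x _ hx => exact smul_mem_new E ((zero_le_val_iff E).2 c.2) hx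

theorem mem_new_iff {η : RationalForm n L} :
    η ∈ regularForms n (val E) ↔ η ∈ P282.regularForms n E.ring := ⟨mem_old E, mem_new E⟩

theorem ordForm_eq_old (ω : RationalForm n L) : ordForm n (val E) ω = E.ordForm n ω := by
  unfold ordForm PrimeDivisorOver.ordForm
  congr 1
  ext k
  constructor
  · rintro ⟨g, hg, hgω⟩
    obtain ⟨hg0, hg1⟩ := (val_eq_iff E).1 hg
    obtain ⟨h0, h1⟩ := v_irreducible E E.unif E.unif_irreducible
    refine ⟨E.unif, E.unif_irreducible, ?_⟩
    have h2 : (E.unif : L) ^ (-k) / g ∈ E.ring := by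
      rw [E.mem_iff_ge, E.ge_iff (div_ne_zero (zpow_ne_zero _ h0) hg0),
        E.v_div (zpow_ne_zero _ h0) hg0, E.v_zpow h0, h1, hg1]
      omega
    have h3 := Submodule.smul_mem _ (⟨_, h2⟩ : E.ring) (mem_old E hgω)
    have h4 : (⟨_, h2⟩ : E.ring) • (g • ω) = ((E.unif : L) ^ (-k)) • ω := by
      show ((E.unif : L) ^ (-k) / g) • (g • ω) = _
      rw [smul_smul, div_mul_cancel₀ _ hg0]
    rwa [h4] at h3
  · rintro ⟨ϖ, hϖ, h⟩
    obtain ⟨h0, h1⟩ := v_irreducible E ϖ hϖ
    refine ⟨(ϖ : L) ^ (-k), ?_, mem_new E h⟩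
    refine (val_eq_iff E).2 ⟨zpow_ne_zero _ h0, ?_⟩
    rw [E.v_zpow h0, h1]
    ring

end

/-! ### germs -/

section

variable {A : Type} [CommRing A] [Algebra ℂ A] [Algebra A L] [IsScalarTower ℂ A L]

theorem IsGorensteinKltPoint.old {n : ℕ} {x : Ideal A} {ω : RationalForm n L}
    (hX : IsGorensteinKltPoint n A x ω) : IsGorensteinKltGerm n A x ω where
  domain := hX.isDomain
  frac := hX.isFractionRing
  finiteType := hX.finiteType
  normal := hX.normal
  dim := hX.dim
  maximal := hX.isMaximal
  cohenMacaulay := fun y hy rs h1 h2 => hX.cohenMacaulay y rs h1 h2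
  generator := by
    intro E h ho hc
    have hcan := hX.canonical (toNew E h) (toNew_isOnX E h ho) (by rw [toNew_center]; exact hc)
    ext ζ
    rw [Submodule.mem_span_singleton]
    constructor
    · rintro ⟨c, rfl⟩
      have h1 : (c : L) • ω ∈ regularForms n (val E) :=
        (hcan _).2 ⟨c, (zero_le_val_iff E).2 c.2, rfl⟩
      exact mem_old E h1
    · intro hζ
      obtain ⟨g, hg, rfl⟩ := (hcan _).1 (mem_new E hζ)
      exact ⟨⟨g, (zero_le_val_iff E).1 hg⟩, rfl⟩
  klt := by
    intro E h hc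
    have h1 := hX.klt (toNew E h) (by rw [toNew_center]; exact hc)
    have h2 : (toNew E h).logDiscrepancy n ω = E.logDiscrepancy n ω := by
      unfold DivisorialValuation.logDiscrepancy PrimeDivisorOver.logDiscrepancy
      rw [← ordForm_eq_old]
      rfl
    rwa [h2] at h1

theorem normalizedVolume_le {n : ℕ} (x : Ideal A) (ω : RationalForm n L) :
    normalizedVolume n x ω ≤ P282.normalizedVolume n x ω := by
  unfold P282.normalizedVolume
  refine le_iInf fun E => le_iInf fun h => le_iInf fun hc => ?_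
  unfold normalizedVolume
  refine iInf_le_of_le (toNew E h) (iInf_le_of_le (by rw [toNew_center]; exact hc) ?_)
  have h2 : (toNew E h).logDiscrepancy n ω = E.logDiscrepancy n ω := by
    unfold DivisorialValuation.logDiscrepancy PrimeDivisorOver.logDiscrepancy
    rw [← ordForm_eq_old]
    rfl
  rw [h2, toNew_vol]

end

end Vale.Agent.P282V
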